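import Mathlib
import Vale.Agent.P052.Transfer

namespace Vale.Agent.Results.P052.BorsukFailsIn63

/-- Borsuk's conjecture fails in dimension 63. -/
theorem result :
    ∃ Y : Set (EuclideanSpace ℝ (Fin 63)), Y.Finite ∧ 0 < Metric.diam Y ∧
      ¬ ∃ C : Fin 64 → Set (EuclideanSpace ℝ (Fin 63)), Y ⊆ ⋃ k, C k ∧
          ∀ k, C k ⊆ Y ∧ Metric.diam (C k) < Metric.diam Y :=
  Vale.Agent.P052.counterexample63

end Vale.Agent.Results.P052.BorsukFailsIn63
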